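import Vale.Agent.P011.D4X.H553.Tran
import Vale.Agent.P011N.D1.Base
import Vale.Agent.P011N.D1.D4X.Defs
import Vale.Agent.P011N.D1.D4X.H691.Na

/-!
Version for big subgroups of `P011.D4X.H553.Tran`.
-/

namespace Vale.Agent.P011.D4X

open Vale.Agent.P011.MPQ Vale.Agent.P011.D4 Vale.Agent.P011.D4.Oct Vale.Agent.P011.E6

section tran

variable {k L E E1 : Type} [Field k] [Field L] [Field E] [Field E1] [Algebra k L] [Algebra k E]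
  [Algebra k E1] [Algebra L E] [Algebra L E1] [IsScalarTower k L E] [IsScalarTower k L E1]
  {ρ σ : E ≃ₐ[k] E} {ρ1 σ1 : E1 ≃ₐ[k] E1} {α : E} {α1 : E1} {a b c a1 b1 c1 : kˣ} {q q1 : Lˣ}

/-- The finite residual is kept. -/
theorem tran_RsB (φ : AT ρ σ α a b c q ≃* AT ρ1 σ1 α1 a1 b1 c1 q1) (hφ : ∀ z, kap (φ z) = kap z)
    {z : AT ρ σ α a b c q} (h : (φ z).1 ∈ RsB ρ1 σ1 α1 a1 b1 c1 q1) :
    z.1 ∈ RsB ρ σ α a b c q := by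
  obtain ⟨h1, h2⟩ := mem_RsB.1 h
  have h3 := fres_mapB (tranG φ hφ).symm h2
  have h4 : (((tranG φ hφ).symm ⟨(φ z).1, h1⟩ : GT ρ σ α a b c q) :
      OctL E a b c ≃ₗ[E] OctL E a b c) = z.1 := by
    change (φ.symm ⟨(φ z).1, _⟩).1 = z.1
    have h5 : (⟨(φ z).1, GT_le_AT h1⟩ : AT ρ1 σ1 α1 a1 b1 c1 q1) = φ z := rfl
    rw [h5, φ.symm_apply_apply]
  refine mem_RsB.2 ⟨h4 ▸ ((tranG φ hφ).symm ⟨(φ z).1, h1⟩).2, ?_⟩
  have h5 : (⟨z.1, h4 ▸ ((tranG φ hφ).symm ⟨(φ z).1, h1⟩).2⟩ : GT ρ σ α a b c q) =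
      (tranG φ hφ).symm ⟨(φ z).1, h1⟩ := Subtype.ext h4.symm
  rw [h5]
  exact h3

end tran

end Vale.Agent.P011.D4X
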