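import Vale.Agent.P011.D4X.H553.Mix
import Vale.Agent.P011N.D1.D4X.Defs
import Vale.Agent.P011N.D1.D4X.H369.AutI
import Vale.Agent.P011N.D1.D4X.H553.Tran
import Vale.Agent.P011N.D1.D4X.H63.MixB
import Vale.Agent.P011N.D1.D4X.H637.Tor
import Vale.Agent.P011N.D1.D4X.H691.Na
import Vale.Agent.P011N.D1.D4X.H862.Short

/-!
Version for big subgroups of `P011.D4X.H553.Mix`.
-/

open NumberField

namespace Vale.Agent.P011.D4X

open Vale.Agent.P011.MPQ Vale.Agent.P011.D4 Vale.Agent.P011.D4.Oct Vale.Agent.P011.E6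

variable {k L E : Type} [Field k] [NumberField k] [Field L] [NumberField L] [Field E]
  [Algebra k L] [Algebra k E] [Algebra L E] [IsScalarTower k L E] [NeZero (2 : E)]
  {ρ σ : E ≃ₐ[k] E} {ρL : L ≃ₐ[k] L} {α : E} {a b c : kˣ} {q : Lˣ}
  (H : Hy ρ σ ρL α a b c q)

include H

/-- F1b': the tori of the other good types. -/
theorem torD_mem'B {x : SL1 (up L a) (q * up L b)} {D : k} {w : Qt (up L a) (q * up L b)}
    (hD : GoodD a b q D) (hD1 : ¬ IsSquare D) (hD2 : ¬ IsSquare ((a : k) * D)) (hw0 : w.re = 0)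
    (hw : w * w = algebraMap k L D • 1) {s t : L}
    (hx : ((x : (Qt (up L a) (q * up L b))ˣ) : Qt (up L a) (q * up L b)) = s • 1 + t • w)
    {g : OctL E a b c ≃ₗ[E] OctL E a b c}
    (hg : ∀ y : OctL E a b c, g y = shortFun ρ (psiL α q ((x : (Qt (up L a) (q * up L b))ˣ) :
      Qt (up L a) (q * up L b))) y) : g ∈ RsB ρ σ α a b c q := by
  obtain ⟨v, hv0, hv⟩ := hD.2.1
  obtain ⟨E1, O, _, _, _, _, _, _, _, _, _, _, _, _, _, _, _, _, ρ1, σ1, α1, ρ', σ', τ', a1, b1,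
    c1, q1, u, φ, X⟩ := exists_kcx H hD.1 hD.2.2.2.2 (Mx.not_sq H hD1 hD2) hv0 hv hw0 hw
  obtain ⟨g0, hg0, hg0'⟩ := exists_short H x
  have hgg : g = g0 := LinearEquiv.ext fun y => by rw [hg, hg0']
  rw [hgg]
  have hn : nrd ((x : (Qt (up L a) (q * up L b))ˣ) : Qt (up L a) (q * up L b)) = 1 := x.2
  have hφ : ∀ z, kap (φ z) = kap z := fun z => kap_eq ((X.kp z _).1 (isKap_kap z))
  refine tran_RsB φ hφ (z := ⟨g0, GT_le_AT hg0⟩) ?_
  have hz : ∀ y, (⟨g0, GT_le_AT hg0⟩ : AT ρ σ α a b c q).1 y = algebraMap L E (1 : L) •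
      zF ρ ρL α q ((1 : k) • 1 + (0 : k) • v) (s • 1 + t • w) 1 y := by
    intro y
    change g0 y = _
    rw [← hx, Mx.zF_short hn, hg0']
  have h1 := X.zf _ 1 s t 1 0 1 hz
  obtain ⟨x1, hx1⟩ : ∃ x1 : Qt (up L a1) (q1 * up L b1), x1 = s • 1 + t • ⟨0, 1, 0, 0⟩ :=
    ⟨_, rfl⟩
  have hn1 : nrd x1 = 1 := by
    have e : algebraMap k L D = ((up L a1 : Lˣ) : L) := by
      rw [← X.ha1]
      rfl
    rw [hx1, KCx.nrd_i, ← hn, hx, KCx.nrd_tor hw0 hw, e]
  have e1 : x1 * star x1 = 1 := by rw [mul_star_self', hn1, one_smul]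
  have e2 : star x1 * x1 = 1 := by rw [star_mul_self', hn1, one_smul]
  refine tor_memB X.H1 (x := ⟨⟨x1, star x1, e1, e2⟩, hn1⟩) ?_ ?_ fun y => ?_
  · change x1.imJ = 0
    rw [hx1]
    change s * 0 + t * 0 = 0
    ring
  · change x1.imK = 0
    rw [hx1]
    change s * 0 + t * 0 = 0
    ring
  · change _ = shortFun ρ1 (psiL α1 q1 x1) y
    rw [h1, ← hx1, Mx.zF_short hn1]

/-- **F1c.** -/
theorem short_memB {x : SL1 (up L a) (q * up L b)} {g : OctL E a b c ≃ₗ[E] OctL E a b c}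
    (hg : ∀ y : OctL E a b c, g y = shortFun ρ (psiL α q ((x : (Qt (up L a) (q * up L b))ˣ) :
      Qt (up L a) (q * up L b))) y) : g ∈ RsB ρ σ α a b c q :=
  short_mem_ofB H (exists_short H) (psiL_mul H)
    (fun hD h1 h2 hw0 hw _ _ hx _ hg => torD_mem'B H hD h1 h2 hw0 hw hx hg) hg

/-- The middle element. -/
theorem mid_memB (s : kˣ) (u : k) (D : kˣ) (w : Qt a b) (p : Qt (up L a) (q * up L b))
    (hDu : (D : k) = u ^ 2 - 4 * s) (hD : GoodD a b q (D : k))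
    (hsg : ∀ τ : k →+* ℝ, τ D < 0 ↔ τ a < 0) (hD2 : ∀ r : k, (D : k) ≠ a * r ^ 2)
    (hD1 : ¬ IsSquare (D : k)) (hw0 : w.re = 0)
    (hw : w * w = (D : k) • 1) (hp0 : p.re = 0) (hp : p * p = algebraMap k L (D : k) • 1)
    (g : OctL E a b c ≃ₗ[E] OctL E a b c) (hg : ∀ y, g y = (algebraMap k E (s : k))⁻¹ •
      zF ρ ρL α q ((1 / 2 : k) • (u • 1 + w)) ((1 / 2 : L) • (algebraMap k L u • 1 + p))
        (s ^ 2) y) : g ∈ RsB ρ σ α a b c q := by
  have hD2' : ¬ IsSquare ((a : k) * (D : k)) := by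
    rintro ⟨r, hr⟩
    apply hD2 (r / a)
    have ha : (a : k) ≠ 0 := a.ne_zero
    field_simp
    linear_combination hr
  obtain ⟨E1, O, _, _, _, _, _, _, _, _, _, _, _, _, _, _, _, _, ρ1, σ1, α1, ρ', σ', τ', a1, b1,
    c1, q1, u1, φ, X⟩ := exists_kcx H hD.1 hD.2.2.2.2 (Mx.not_sq H hD1 hD2') hw0 hw hp0 hp
  have hs0 : (s : k) ≠ 0 := s.ne_zero
  have hsL : algebraMap k L (s : k) ≠ 0 := (map_ne_zero _).2 hs0
  have hDL : algebraMap k L (D : k) = algebraMap k L u ^ 2 - 4 * algebraMap k L (s : k) := by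
    rw [hDu, map_sub, map_pow, map_mul, map_ofNat]
  have n0 : nrd ((1 / 2 : k) • (u • 1 + w)) = (s : k) := nrd_half hw0 hw hDu
  have n1 : nrd ((1 / 2 : L) • (algebraMap k L u • 1 + p)) = algebraMap k L (s : k) :=
    nrd_half hp0 hp hDL
  obtain ⟨z0, -, hz0κ, hz0⟩ := exists_z (c := c) H ((1 / 2 : k) • (u • 1 + w))
    ((1 / 2 : L) • (algebraMap k L u • 1 + p)) (s ^ 2) (by
      rw [n0, n1, ρL.commutes, ρL.commutes, Units.val_pow_eq_pow_val, map_pow, map_pow]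
      ring)
  set l : Lˣ := up L s⁻¹ with hl
  have hlv : (l : L) = (algebraMap k L (s : k))⁻¹ := by
    change algebraMap k L ((s⁻¹ : kˣ) : k) = _
    rw [Units.val_inv_eq_inv_val, map_inv₀]
  have hlE : algebraMap L E (l : L) = (algebraMap k E (s : k))⁻¹ := by
    rw [hlv, map_inv₀, ← IsScalarTower.algebraMap_apply]
  have hφ : ∀ z, kap (φ z) = kap z := fun z => kap_eq ((X.kp z _).1 (isKap_kap z))
  have hgz : g = (H.scal l * z0 : AT ρ σ α a b c q).1 := by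
    apply LinearEquiv.ext
    intro y
    rw [hg]
    change _ = (H.scal l).1 (z0.1 y)
    rw [H.scal_apply, hz0, hlE]
  -- the multiplier
  have hk0 : kap z0 = (up L s)⁻¹ := by
    apply kap_eq
    apply hz0κ
    rw [n1, ρL.commutes]
    change algebraMap k L (s : k) * (((up L s)⁻¹ : Lˣ) : L) = 1
    rw [Units.val_inv_eq_inv_val]
    exact mul_inv_cancel₀ hsL
  have hk1 : kap (H.scal l) = up L s := by
    have h1 := kap_scal H l
    rw [hlv, map_inv₀, map_inv₀, ρL.commutes, ρL.commutes] at h1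
    apply Units.ext
    change (kap (H.scal l) : L) = algebraMap k L (s : k)
    field_simp at h1
    linear_combination -h1
  have hk : kap (H.scal l * z0 : AT ρ σ α a b c q) = 1 := by
    rw [kap_mul, hk0, hk1, mul_inv_cancel]
  rw [hgz]
  refine tran_RsB φ hφ ?_
  -- the formula in the new model
  have hz : ∀ y, (H.scal l * z0 : AT ρ σ α a b c q).1 y = algebraMap L E (l : L) •
      zF ρ ρL α q ((1 / 2 * u : k) • 1 + (1 / 2 : k) • w)
        ((1 / 2 * algebraMap k L u : L) • 1 + (1 / 2 : L) • p) (s ^ 2) y := by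
    intro y
    have e1 : (1 / 2 : k) • (u • 1 + w) = (1 / 2 * u : k) • 1 + (1 / 2 : k) • w := by
      rw [smul_add, smul_smul]
    have e2 : (1 / 2 : L) • (algebraMap k L u • 1 + p) =
        (1 / 2 * algebraMap k L u : L) • 1 + (1 / 2 : L) • p := by
      rw [smul_add, smul_smul]
    rw [← e1, ← e2, ← hz0, ← H.scal_apply]
    rfl
  have h1 := X.zf _ _ _ _ _ _ _ hz
  refine H369.autI_memB X.H1 (mem_GT_of_kap_one (by rw [hφ, hk])) ?_
  rw [h1, KCx.zF_eq]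
  -- the quaternion
  obtain ⟨Y, hY⟩ : ∃ Y : Qt (up E1 a1) (up E1 b1), Y = psiL α1 q1
    ((1 / 2 * algebraMap k L u : L) • 1 + (1 / 2 : L) • ⟨0, 1, 0, 0⟩) := ⟨_, rfl⟩
  rw [← hY]
  have hYn : nrd Y = algebraMap k E1 (s : k) := by
    have e : ((up L a1 : Lˣ) : L) = algebraMap k L (u ^ 2 - 4 * s) := by
      rw [← hDu, ← X.ha1]
      rfl
    rw [hY, nrd_psiL X.H1, KCx.nrd_i, e, IsScalarTower.algebraMap_apply k L E1]
    congr 1
    rw [map_sub, map_pow, map_mul, map_ofNat]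
    ring
  have hYe : Y = (1 / 2 * algebraMap k E1 u : E1) • 1 + (1 / 2 : E1) • ⟨0, 1, 0, 0⟩ := by
    rw [hY, KCx.psiL_add, KCx.psiL_smul, KCx.psiL_smul, KCx.psiL_one, KCx.psiL_i, map_mul,
      map_div₀, map_one, map_ofNat, ← IsScalarTower.algebraMap_apply]
  have hY1 : Y = ⟨1 / 2 * algebraMap k E1 u, 1 / 2, 0, 0⟩ := by
    rw [hYe]
    apply QuaternionAlgebra.ext
    · change 1 / 2 * algebraMap k E1 u * 1 + 1 / 2 * 0 = 1 / 2 * algebraMap k E1 u
      ring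
    · change 1 / 2 * algebraMap k E1 u * 0 + 1 / 2 * 1 = (1 / 2 : E1)
      ring
    · change 1 / 2 * algebraMap k E1 u * 0 + 1 / 2 * 0 = (0 : E1)
      ring
    · change 1 / 2 * algebraMap k E1 u * 0 + 1 / 2 * 0 = (0 : E1)
      ring
  have hYρ : qmap ρ1 Y = Y := by
    rw [hY1]
    apply QuaternionAlgebra.ext
    · change ρ1 (1 / 2 * algebraMap k E1 u) = 1 / 2 * algebraMap k E1 u
      rw [map_mul, map_div₀, map_one, map_ofNat, ρ1.commutes]
    · change ρ1 (1 / 2) = 1 / 2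
      rw [map_div₀, map_one, map_ofNat]
    · exact map_zero _
    · exact map_zero _
  have hcomm : Y * (⟨1 / 2, 1 / (2 * α1), 0, 0⟩ : Qt (up E1 a1) (up E1 b1)) =
      ⟨1 / 2, 1 / (2 * α1), 0, 0⟩ * Y := by
    rw [hY1]
    exact Mx.comm_diag _ _ _ _
  have hlE1 : algebraMap L E1 (l : L) * nrd Y = 1 := by
    rw [hYn, hlv, map_inv₀, ← IsScalarTower.algebraMap_apply]
    exact inv_mul_cancel₀ ((map_ne_zero _).2 hs0)
  apply Oct.ext
  · rw [fst_smul, fst_zFun, hYρ, hYρ]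
    change algebraMap L E1 (l : L) • (Y * ⟨1 / 2, 1 / (2 * α1), 0, 0⟩ * star Y) =
      ⟨1 / 2, 1 / (2 * α1), 0, 0⟩
    rw [hcomm, mul_assoc, mul_star_self', mul_smul_comm, mul_one, smul_smul, hlE1, one_smul]
  · rw [snd_smul, snd_zFun]
    change _ • (_ • (_ * (0 : Qt (up E1 a1) (up E1 b1)) * _)) = 0
    rw [mul_zero, zero_mul, smul_zero, smul_zero]

/-- **F1d**: the elements with `nrd x₀ = nrd x ∈ k*` (normalised by `κ = 1`). -/
theorem mix_memB {x0 : Qt a b} {x : Qt (up L a) (q * up L b)} {s : kˣ} (h0 : nrd x0 = s)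
    (h1 : nrd x = algebraMap k L (s : k)) {g : OctL E a b c ≃ₗ[E] OctL E a b c}
    (hg : ∀ y : OctL E a b c, g y =
      (algebraMap k E (s : k))⁻¹ • zF ρ ρL α q x0 x (s ^ 2) y) : g ∈ RsB ρ σ α a b c q :=
  mix_mem_ofB H (fun _ _ hg => short_memB H hg)
    (fun s u D w p hDu hD hsg hD2 hw0 hw hp0 hp g hg =>
      mid_memB H s u D w p hDu hD hsg hD2 (Mx.not_sq_good H hD) hw0 hw hp0 hp g hg) h0 h1 hg

end Vale.Agent.P011.D4X
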